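import Vale.Agent.P101.Drop.Defs
import Vale.Agent.P101.Column

/-!
The universal property of dimension drop algebras with coefficients: commuting copies of the
coefficients and of the scalar algebra extend to the whole algebra.
-/

open Filter Topology
open scoped unitInterval ComplexOrder

namespace Vale.Agent.P101.Drop

variable {P Q : ℕ} [NeZero P] [NeZero Q]
  {A : Type*} [CStarAlgebra A] [PartialOrder A] [StarOrderedRing A]
  {B : Type*} [CStarAlgebra B]

/-- Star homomorphisms of unital C⋆-algebras are continuous. -/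
theorem continuous_hom {C D : Type*} [CStarAlgebra C] [CStarAlgebra D] (φ : C →⋆ₐ[ℂ] D) :
    Continuous φ :=
  AddMonoidHomClass.continuous_of_bound φ 1 fun x => by
    rw [one_mul]; exact NonUnitalStarAlgHom.norm_apply_le φ x

omit [NeZero P] [NeZero Q] in
/-- The scalar tensor is a scalar multiple. -/
theorem tensor_scalar (c : ℂ) (z : dropAlg P Q ℂ) : tensor c z = c • z := by
  ext t p q
  simp [tensor_apply, mul_comm]

omit [NeZero P] [NeZero Q] in
theorem tensor_smul (c : ℂ) (a : A) (z : dropAlg P Q ℂ) : tensor (c • a) z = c • tensor a z := by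
  ext t p q
  simp [tensor_apply, smul_comm c]

/-- The frames of one degree form a partition of unity. -/
theorem sum_frame_pair (n : ℕ) :
    ∑ k : Fin (n + 2), ∑ μ : Idx P Q, star (frame n k μ) * frame n k μ = 1 := by
  have h := bernstein_eq_sum (1 : dropAlg P Q ℂ) n
  apply Subtype.ext
  simp only [tensor_scalar, OneMemClass.coe_one, ContinuousMap.one_apply, CStarMatrix.one_apply,
    ite_smul, one_smul, zero_smul, Finset.sum_ite_eq, Finset.mem_univ, if_true] at h
  rw [← h]
  ext t p q
  rw [bernsteinApproximation.apply]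
  simp only [ContinuousMap.one_apply, ← Finset.sum_smul, bernstein.probability, one_smul]
  rfl

/-- The Bernstein approximation inside the algebra. -/
noncomputable def bern (n : ℕ) (f : dropAlg P Q A) : dropAlg P Q A :=
  ∑ k : Fin (n + 2), ∑ μ, ∑ ν, tensor ((f : C(I, Mat P Q A)) (bernstein.z k) μ ν)
    (star (frame n k μ) * frame n k ν)

theorem tendsto_bern (f : dropAlg P Q A) : Tendsto (fun n => bern n f) atTop (𝓝 f) := by
  let : NormedSpace ℝ (Mat P Q A) :=
    { (inferInstance : Module ℝ (Mat P Q A)) with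
      norm_smul_le := fun r M => by
        rw [RCLike.real_smul_eq_coe_smul (K := ℂ) r M, norm_smul, RCLike.norm_ofReal,
          Real.norm_eq_abs] }
  rw [tendsto_subtype_rng]
  refine ((bernsteinApproximation_uniform (f : C(I, Mat P Q A))).comp
    (tendsto_add_atTop_nat 1)).congr fun n => ?_
  exact bernstein_eq_sum f n

/-- Star homomorphisms agree if they agree on elementary tensors. -/
theorem hom_ext {Φ Ψ : dropAlg P Q A →⋆ₐ[ℂ] B}
    (h : ∀ a z, Φ (tensor a z) = Ψ (tensor a z)) : Φ = Ψ := by
  refine StarAlgHom.ext fun f => tendsto_nhds_unique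
    (((continuous_hom Φ).tendsto f).comp (tendsto_bern f))
    ((((continuous_hom Ψ).tendsto f).comp (tendsto_bern f)).congr fun n => ?_)
  simp [bern, map_sum, h]

variable (ι : A →⋆ₐ[ℂ] B) (ψ : dropAlg P Q ℂ →⋆ₐ[ℂ] B)

/-- The approximate extensions. -/
noncomputable def approx (n : ℕ) : dropAlg P Q A →ₗ[ℂ] B where
  toFun f := ∑ k : Fin (n + 2), ∑ μ, ∑ ν,
    ι ((f : C(I, Mat P Q A)) (bernstein.z k) μ ν) * ψ (star (frame n k μ) * frame n k ν)
  map_add' f g := by simp [Finset.sum_add_distrib, add_mul]
  map_smul' c f := by simp [Finset.smul_sum, map_smul]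

variable (hc : ∀ a z, Commute (ι a) (ψ z))
include hc

theorem norm_approx_le (n : ℕ) (f : dropAlg P Q A) : ‖approx ι ψ n f‖ ≤ ‖f‖ := by
  let := CStarAlgebra.spectralOrder B
  let := CStarAlgebra.spectralOrderedRing B
  have hr : ‖∑ k : Fin (n + 2), ∑ μ, star (ψ (frame n k μ)) * ψ (frame n k μ)‖ ≤ 1 := by
    simp only [← map_star, ← map_mul, ← map_sum, sum_frame_pair, map_one]
    rcases subsingleton_or_nontrivial B with h | h
    · simp [Subsingleton.elim (1 : B) 0]
    · exact (CStarRing.norm_one).le
  have e : approx ι ψ n f = ∑ k : Fin (n + 2), ∑ μ, ∑ ν,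
      star (ψ (frame n k μ)) * ι ((f : C(I, Mat P Q A)) (bernstein.z k) μ ν) * ψ (frame n k ν) := by
    simp only [approx, LinearMap.coe_mk, AddHom.coe_mk]
    refine Finset.sum_congr rfl fun k _ => Finset.sum_congr rfl fun μ _ => Finset.sum_congr rfl
      fun ν _ => ?_
    rw [← map_star, ← (hc _ _).eq, map_mul, mul_assoc]
  rw [e]
  refine (norm_compress_le ι (fun k μ => ψ (frame n k μ)) hr
    (fun k => (f : C(I, Mat P Q A)) (bernstein.z k))).trans ?_
  exact (pi_norm_le_iff_of_nonneg (norm_nonneg _)).2 fun k =>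
    (f : C(I, Mat P Q A)).norm_coe_le_norm _

omit hc in
theorem tendsto_approx_tensor (a : A) (z : dropAlg P Q ℂ) :
    Tendsto (fun n => approx ι ψ n (tensor a z)) atTop (𝓝 (ι a * ψ z)) := by
  refine (((continuous_hom ψ).tendsto z).comp (tendsto_bern z) |>.const_mul (ι a)).congr fun n => ?_
  simp only [Function.comp_apply, bern, approx, LinearMap.coe_mk, AddHom.coe_mk, map_sum,
    Finset.mul_sum, tensor_scalar, map_smul, tensor_apply, mul_smul_comm, smul_mul_assoc]

theorem exists_limit (f : dropAlg P Q A) :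
    ∃ y, Tendsto (fun n => approx ι ψ n f) atTop (𝓝 y) := by
  refine cauchySeq_tendsto_of_complete (Metric.cauchySeq_iff'.2 fun ε hε => ?_)
  obtain ⟨N, hN⟩ := ((tendsto_bern f).eventually
    (Metric.ball_mem_nhds f (show (0 : ℝ) < ε / 4 by positivity))).exists
  have hg : ∃ y, Tendsto (fun n => approx ι ψ n (bern N f)) atTop (𝓝 y) := by
    refine ⟨∑ k : Fin (N + 2), ∑ μ, ∑ ν, ι ((f : C(I, Mat P Q A)) (bernstein.z k) μ ν) *
      ψ (star (frame N k μ) * frame N k ν), ?_⟩
    simp only [bern, map_sum]
    exact tendsto_finsetSum _ fun k _ => tendsto_finsetSum _ fun μ _ =>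
      tendsto_finsetSum _ fun ν _ => tendsto_approx_tensor ι ψ _ _
  obtain ⟨y, hy⟩ := hg
  obtain ⟨M, hM⟩ := Metric.cauchySeq_iff'.1 hy.cauchySeq (ε / 4) (by positivity)
  refine ⟨M, fun m hm => ?_⟩
  have hd : ∀ j, dist (approx ι ψ j f) (approx ι ψ j (bern N f)) < ε / 4 := fun j => by
    rw [dist_eq_norm, ← map_sub]
    refine (norm_approx_le ι ψ hc j _).trans_lt ?_
    rw [← dist_eq_norm' (bern N f) f]
    exact hN
  have := dist_triangle4 (approx ι ψ m f) (approx ι ψ m (bern N f)) (approx ι ψ M (bern N f))
    (approx ι ψ M f)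
  have := hd m
  have := hd M
  have := hM m hm
  rw [dist_comm (approx ι ψ M (bern N f))] at *
  linarith

/-- The extension of two commuting homomorphisms, as a linear map. -/
noncomputable def liftLinear : dropAlg P Q A →ₗ[ℂ] B where
  toFun f := (exists_limit ι ψ hc f).choose
  map_add' f g := tendsto_nhds_unique (exists_limit ι ψ hc (f + g)).choose_spec
    (((exists_limit ι ψ hc f).choose_spec.add (exists_limit ι ψ hc g).choose_spec).congr
      fun _ => (map_add _ f g).symm)
  map_smul' c f := tendsto_nhds_unique (exists_limit ι ψ hc (c • f)).choose_spec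
    (((exists_limit ι ψ hc f).choose_spec.const_smul c).congr fun _ => (map_smul _ c f).symm)

theorem norm_liftLinear_le (f : dropAlg P Q A) : ‖liftLinear ι ψ hc f‖ ≤ ‖f‖ :=
  le_of_tendsto (exists_limit ι ψ hc f).choose_spec.norm
    (Eventually.of_forall fun n => norm_approx_le ι ψ hc n f)

theorem liftLinear_tensor (a : A) (z : dropAlg P Q ℂ) :
    liftLinear ι ψ hc (tensor a z) = ι a * ψ z :=
  tendsto_nhds_unique (exists_limit ι ψ hc (tensor a z)).choose_spec
    (tendsto_approx_tensor ι ψ a z)

theorem liftLinear_mul (f g : dropAlg P Q A) :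
    liftLinear ι ψ hc (f * g) = liftLinear ι ψ hc f * liftLinear ι ψ hc g := by
  have hL : Continuous (liftLinear ι ψ hc) :=
    AddMonoidHomClass.continuous_of_bound _ 1 fun x => by
      rw [one_mul]; exact norm_liftLinear_le ι ψ hc x
  refine tendsto_nhds_unique ((hL.tendsto _).comp ((tendsto_bern f).mul (tendsto_bern g)))
    ((((hL.tendsto _).comp (tendsto_bern f)).mul ((hL.tendsto _).comp (tendsto_bern g))).congr
      fun n => ?_)
  simp only [Function.comp_apply, bern, map_sum, Finset.sum_mul, Finset.mul_sum, tensor_mul,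
    liftLinear_tensor, map_mul]
  refine Finset.sum_congr rfl fun k _ => Finset.sum_congr rfl fun μ _ => Finset.sum_congr rfl
    fun ν _ => Finset.sum_congr rfl fun k' _ => Finset.sum_congr rfl fun μ' _ =>
    Finset.sum_congr rfl fun ν' _ => ?_
  rw [← map_mul ψ, ← map_mul ψ]
  exact Commute.mul_mul_mul_comm (hc _ _).symm _ _

/-- Commuting unital copies of the coefficients and of the scalar dimension drop algebra extend
to the dimension drop algebra with coefficients. -/
noncomputable def lift : dropAlg P Q A →⋆ₐ[ℂ] B where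
  toFun := liftLinear ι ψ hc
  map_one' := by rw [← tensor_one, liftLinear_tensor, map_one, map_one, one_mul]
  map_mul' := liftLinear_mul ι ψ hc
  map_zero' := map_zero _
  map_add' := map_add _
  commutes' c := by
    rw [Algebra.algebraMap_eq_smul_one, map_smul, ← tensor_one, liftLinear_tensor, map_one,
      map_one, one_mul, Algebra.algebraMap_eq_smul_one]
  map_star' f := by
    have hL : Continuous (liftLinear ι ψ hc) :=
      AddMonoidHomClass.continuous_of_bound _ 1 fun x => by
        rw [one_mul]; exact norm_liftLinear_le ι ψ hc x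
    refine tendsto_nhds_unique ((hL.tendsto _).comp (tendsto_bern f).star)
      (((hL.tendsto _).comp (tendsto_bern f)).star.congr fun n => ?_)
    simp only [Function.comp_apply, bern, map_sum, star_sum, tensor_star, liftLinear_tensor,
      map_star, star_mul]
    exact Finset.sum_congr rfl fun k _ => Finset.sum_congr rfl fun μ _ =>
      Finset.sum_congr rfl fun ν _ => by
        rw [← star_mul (star (frame n k μ)), map_star, ((hc _ _).star_star).eq]

@[simp]
theorem lift_tensor (a : A) (z : dropAlg P Q ℂ) : lift ι ψ hc (tensor a z) = ι a * ψ z :=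
  liftLinear_tensor ι ψ hc a z

theorem norm_lift_le (f : dropAlg P Q A) : ‖lift ι ψ hc f‖ ≤ ‖f‖ := norm_liftLinear_le ι ψ hc f

end Vale.Agent.P101.Drop
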