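import Mathlib

/-!
Dimension drop algebras with coefficients, elementary tensors and Bernstein frames.
-/

open scoped unitInterval

namespace Vale.Agent.P101.Drop

/-- The index type of the fibres. -/
abbrev Idx (P Q : ℕ) := Fin P × Fin Q

/-- The fibres. -/
abbrev Mat (P Q : ℕ) (A : Type*) := CStarMatrix (Idx P Q) (Idx P Q) A

variable {P Q : ℕ} {A : Type*} [CStarAlgebra A] [PartialOrder A] [StarOrderedRing A]

/-- A matrix of the form `x ⊗ 1`. -/
def IsLeft (y : Mat P Q A) : Prop :=
  ∃ x : Fin P → Fin P → A, ∀ p q, y p q = if p.2 = q.2 then x p.1 q.1 else 0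

/-- A matrix of the form `1 ⊗ x`. -/
def IsRight (y : Mat P Q A) : Prop :=
  ∃ x : Fin Q → Fin Q → A, ∀ p q, y p q = if p.1 = q.1 then x p.2 q.2 else 0

variable (P Q A) in
/-- The dimension drop algebra with coefficients in `A`. -/
noncomputable def dropAlg : StarSubalgebra ℂ C(I, Mat P Q A) where
  carrier := {f | IsLeft (f 0) ∧ IsRight (f 1)}
  mul_mem' := by
    rintro f g ⟨⟨x, hx⟩, y, hy⟩ ⟨⟨x', hx'⟩, y', hy'⟩
    refine ⟨⟨fun i j => ∑ l, x i l * x' l j, fun p q => ?_⟩,
      fun i j => ∑ l, y i l * y' l j, fun p q => ?_⟩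
    · simp [CStarMatrix.mul_apply, Fintype.sum_prod_type, hx, hx', ite_mul]
    · rw [ContinuousMap.mul_apply, CStarMatrix.mul_apply, Fintype.sum_prod_type_right]
      simp [hy, hy', ite_mul]
  add_mem' := by
    rintro f g ⟨⟨x, hx⟩, y, hy⟩ ⟨⟨x', hx'⟩, y', hy'⟩
    exact ⟨⟨x + x', fun p q => by simp [hx, hx']; split <;> simp⟩,
      y + y', fun p q => by simp [hy, hy']; split <;> simp⟩
  algebraMap_mem' c := by
    refine ⟨⟨fun i j => if i = j then algebraMap ℂ A c else 0, fun p q => ?_⟩,
      fun i j => if i = j then algebraMap ℂ A c else 0, fun p q => ?_⟩ <;>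
    · rcases p with ⟨i, a⟩
      rcases q with ⟨j, b⟩
      simp only [Algebra.algebraMap_eq_smul_one, ContinuousMap.smul_apply,
        ContinuousMap.one_apply, CStarMatrix.smul_apply, CStarMatrix.one_apply, Prod.mk.injEq]
      split_ifs <;> simp_all
  star_mem' := by
    rintro f ⟨⟨x, hx⟩, y, hy⟩
    exact ⟨⟨fun i j => star (x j i), fun p q => by
        simp [CStarMatrix.star_apply, hx, eq_comm (a := q.2)]; split <;> simp⟩,
      fun i j => star (y j i), fun p q => by
        simp [CStarMatrix.star_apply, hy, eq_comm (a := q.1)]; split <;> simp⟩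

theorem mem_dropAlg {f : C(I, Mat P Q A)} :
    f ∈ dropAlg P Q A ↔ IsLeft (f 0) ∧ IsRight (f 1) := Iff.rfl

omit [PartialOrder A] [StarOrderedRing A] in
theorem sum_entry {ι : Type*} (s : Finset ι) (f : ι → Mat P Q A) (p q : Idx P Q) :
    (∑ i ∈ s, f i) p q = ∑ i ∈ s, f i p q := by
  classical
  induction s using Finset.induction_on with
  | empty => simp [CStarMatrix.zero_apply]
  | insert i s hi ih => simp [Finset.sum_insert hi, ih]

omit [PartialOrder A] [StarOrderedRing A] in
theorem continuous_entry (t : I) (p q : Idx P Q) :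
    Continuous fun f : C(I, Mat P Q A) => f t p q :=
  (continuous_apply q).comp ((continuous_apply p).comp (ContinuousEvalConst.continuous_eval_const t))

omit [PartialOrder A] [StarOrderedRing A] in
theorem isLeft_iff [NeZero Q] (y : Mat P Q A) :
    IsLeft y ↔ ∀ p q, y p q = if p.2 = q.2 then y (p.1, 0) (q.1, 0) else 0 := by
  refine ⟨fun ⟨x, hx⟩ p q => ?_, fun h => ⟨fun i j => y (i, 0) (j, 0), h⟩⟩
  rw [hx, hx]
  simp

omit [PartialOrder A] [StarOrderedRing A] in
theorem isRight_iff [NeZero P] (y : Mat P Q A) :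
    IsRight y ↔ ∀ p q, y p q = if p.1 = q.1 then y (0, p.2) (0, q.2) else 0 := by
  refine ⟨fun ⟨x, hx⟩ p q => ?_, fun h => ⟨fun i j => y (0, i) (0, j), h⟩⟩
  rw [hx, hx]
  simp

instance isClosed_dropAlg [NeZero P] [NeZero Q] :
    IsClosed (dropAlg P Q A : Set C(I, Mat P Q A)) := by
  have e : (dropAlg P Q A : Set C(I, Mat P Q A)) =
      (⋂ (p) (q), {f | f 0 p q = if p.2 = q.2 then f 0 (p.1, 0) (q.1, 0) else 0}) ∩
        ⋂ (p) (q), {f | f 1 p q = if p.1 = q.1 then f 1 (0, p.2) (0, q.2) else 0} := by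
    ext f
    simp [mem_dropAlg, isLeft_iff, isRight_iff]
  rw [e]
  refine (isClosed_iInter fun p => isClosed_iInter fun q => isClosed_eq (continuous_entry _ _ _) ?_).inter
    (isClosed_iInter fun p => isClosed_iInter fun q => isClosed_eq (continuous_entry _ _ _) ?_) <;>
  split_ifs <;> first
    | exact continuous_entry _ _ _
    | exact continuous_const

/-- The dimension drop algebra is a C⋆-algebra. -/
noncomputable instance cstarAlgebraDropAlg [NeZero P] [NeZero Q] : CStarAlgebra (dropAlg P Q A) :=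
  StarSubalgebra.cstarAlgebra (h_closed := isClosed_dropAlg) _

section Tensor

open scoped ComplexOrder

/-- The elementary tensor of a coefficient and a function. -/
noncomputable def tensor (a : A) (z : dropAlg P Q ℂ) : dropAlg P Q A :=
  ⟨⟨fun t => CStarMatrix.ofMatrix fun p q => (z : C(I, Mat P Q ℂ)) t p q • a,
      continuous_pi fun p => continuous_pi fun q => (((continuous_apply q).comp
        ((continuous_apply p).comp (z : C(I, Mat P Q ℂ)).continuous)).smul continuous_const :
        Continuous fun t => (z : C(I, Mat P Q ℂ)) t p q • a)⟩, by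
    obtain ⟨⟨x, hx⟩, y, hy⟩ := z.2
    refine ⟨⟨fun i j => x i j • a, fun p q => ?_⟩, fun i j => y i j • a, fun p q => ?_⟩
    · change (z : C(I, Mat P Q ℂ)) 0 p q • a = _
      rw [hx]; split <;> simp
    · change (z : C(I, Mat P Q ℂ)) 1 p q • a = _
      rw [hy]; split <;> simp⟩

theorem tensor_apply (a : A) (z : dropAlg P Q ℂ) (t : I) (p q : Idx P Q) :
    (tensor a z : C(I, Mat P Q A)) t p q = (z : C(I, Mat P Q ℂ)) t p q • a := rfl

theorem tensor_mul (a b : A) (z w : dropAlg P Q ℂ) :
    tensor a z * tensor b w = tensor (a * b) (z * w) := by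
  ext t p q
  simp [CStarMatrix.mul_apply, tensor_apply, Finset.sum_smul, smul_smul, mul_comm]

theorem tensor_star (a : A) (z : dropAlg P Q ℂ) : star (tensor a z) = tensor (star a) (star z) := by
  ext t p q
  simp [CStarMatrix.star_apply, tensor_apply]

theorem tensor_one : tensor (1 : A) (1 : dropAlg P Q ℂ) = 1 := by
  ext t p q
  simp only [tensor_apply, OneMemClass.coe_one, ContinuousMap.one_apply, CStarMatrix.one_apply]
  split <;> simp

end Tensor

/-! ### Bernstein frames -/

section Frame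

open scoped ComplexOrder

variable [NeZero P] [NeZero Q]

/-- The frame of a mesh point: matrix units, adapted to the shape at the two endpoints. -/
def gEnt {n : ℕ} (k : Fin (n + 2)) (μ p q : Idx P Q) : ℂ :=
  if k = 0 then if μ.2 = 0 ∧ p.1 = 0 ∧ q.1 = μ.1 ∧ p.2 = q.2 then 1 else 0
  else if k = Fin.last (n + 1) then if μ.1 = 0 ∧ p.2 = 0 ∧ q.2 = μ.2 ∧ p.1 = q.1 then 1 else 0
  else if p = (0, 0) ∧ q = μ then 1 else 0

/-- The shape demanded at a mesh point. -/
def ShapeAt {n : ℕ} (k : Fin (n + 2)) (y : Mat P Q A) : Prop :=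
  (k = 0 → IsLeft y) ∧ (k = Fin.last (n + 1) → IsRight y)

omit [PartialOrder A] [StarOrderedRing A] in
/-- The frame reproduces matrices of its shape. -/
theorem frame_reproduce {n : ℕ} (k : Fin (n + 2)) {y : Mat P Q A} (hy : ShapeAt k y)
    (p q : Idx P Q) :
    ∑ μ, ∑ ν, (∑ r, star (gEnt k μ r p) * gEnt k ν r q) • y μ ν = y p q := by
  by_cases h0 : k = 0
  · have hL := (isLeft_iff y).1 (hy.1 h0)
    rw [hL p q]
    simp [gEnt, h0, Fintype.sum_prod_type, ite_and, apply_ite star, ite_smul, Finset.sum_ite_eq,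
      Finset.sum_ite_eq', eq_comm (a := q.2)]
  by_cases h1 : k = Fin.last (n + 1)
  · have hR := (isRight_iff y).1 (hy.2 h1)
    rw [hR p q]
    simp [gEnt, h1, Fintype.sum_prod_type, ite_and, apply_ite star, ite_smul, Finset.sum_ite_eq,
      Finset.sum_ite_eq', eq_comm (a := q.1)]
  · simp [gEnt, h0, h1, ite_and, apply_ite star, ite_smul, Finset.sum_ite_eq, Finset.sum_ite_eq']

theorem bernstein_at_zero {n : ℕ} {k : Fin (n + 2)} (h : k ≠ 0) :
    bernstein (n + 1) k 0 = 0 := by
  simp [bernstein_apply, zero_pow (Fin.val_ne_zero_iff.2 h)]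

theorem bernstein_at_one {n : ℕ} {k : Fin (n + 2)} (h : k ≠ Fin.last (n + 1)) :
    bernstein (n + 1) k 1 = 0 := by
  have hk : (k : ℕ) < n + 1 := Fin.val_lt_last h
  simp [bernstein_apply, zero_pow (show n + 1 - (k : ℕ) ≠ 0 by omega)]

/-- One member of a frame, weighted by the root of its Bernstein polynomial. -/
noncomputable def frame (n : ℕ) (k : Fin (n + 2)) (μ : Idx P Q) : dropAlg P Q ℂ :=
  ⟨⟨fun t => CStarMatrix.ofMatrix fun p q =>
      (Real.sqrt (bernstein (n + 1) k t) : ℂ) * gEnt k μ p q,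
      continuous_pi fun p => continuous_pi fun q =>
        ((Complex.continuous_ofReal.comp (bernstein (n + 1) k).continuous.sqrt).mul continuous_const :
          Continuous fun t => (Real.sqrt (bernstein (n + 1) k t) : ℂ) * gEnt k μ p q)⟩, by
    constructor
    · refine ⟨fun i j => if k = 0 ∧ μ.2 = 0 ∧ i = 0 ∧ j = μ.1 then
        (Real.sqrt (bernstein (n + 1) k 0) : ℂ) else 0, fun p q => ?_⟩
      change (Real.sqrt (bernstein (n + 1) k 0) : ℂ) * gEnt k μ p q = _
      by_cases h : k = 0
      · simp [gEnt, h]; split_ifs <;> simp_all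
      · simp [h, bernstein_at_zero h]
    · refine ⟨fun i j => if k = Fin.last (n + 1) ∧ μ.1 = 0 ∧ i = 0 ∧ j = μ.2 then
        (Real.sqrt (bernstein (n + 1) k 1) : ℂ) else 0, fun p q => ?_⟩
      change (Real.sqrt (bernstein (n + 1) k 1) : ℂ) * gEnt k μ p q = _
      by_cases h : k = Fin.last (n + 1)
      · simp [gEnt, h]; split_ifs <;> simp_all
      · simp [h, bernstein_at_one h]⟩

theorem frame_pair_apply (n : ℕ) (k : Fin (n + 2)) (μ ν : Idx P Q) (t : I) (p q : Idx P Q) :
    ((star (frame n k μ) * frame n k ν : dropAlg P Q ℂ) : C(I, Mat P Q ℂ)) t p q =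
      (bernstein (n + 1) k t : ℂ) * ∑ r, star (gEnt k μ r p) * gEnt k ν r q := by
  have hb := Real.mul_self_sqrt (bernstein_nonneg (n := n + 1) (ν := k) (x := t))
  change ∑ r, star ((Real.sqrt (bernstein (n + 1) k t) : ℂ) * gEnt k μ r p) *
    ((Real.sqrt (bernstein (n + 1) k t) : ℂ) * gEnt k ν r q) = _
  rw [Finset.mul_sum]
  refine Finset.sum_congr rfl fun r _ => ?_
  have hb' : ((Real.sqrt (bernstein (n + 1) k t) : ℂ)) * (Real.sqrt (bernstein (n + 1) k t) : ℂ) =
      (bernstein (n + 1) k t : ℂ) := by exact_mod_cast hb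
  simp only [star_mul, Complex.star_def, Complex.conj_ofReal]
  linear_combination ((starRingEnd ℂ) (gEnt k μ r p) * gEnt k ν r q) * hb'

omit [NeZero P] [NeZero Q] in
theorem shapeAt_z (f : dropAlg P Q A) {n : ℕ} (k : Fin (n + 2)) :
    ShapeAt k ((f : C(I, Mat P Q A)) (bernstein.z k)) :=
  ⟨fun h => by simpa [h] using f.2.1, fun h => by simpa [h] using f.2.2⟩

/-- The Bernstein approximation is a sum of elementary tensors. -/
theorem bernstein_eq_sum (f : dropAlg P Q A) (n : ℕ) :
    bernsteinApproximation (n + 1) (f : C(I, Mat P Q A)) =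
      ((∑ k : Fin (n + 2), ∑ μ, ∑ ν, tensor ((f : C(I, Mat P Q A)) (bernstein.z k) μ ν)
        (star (frame n k μ) * frame n k ν) : dropAlg P Q A) : C(I, Mat P Q A)) := by
  ext t p q
  simp only [bernsteinApproximation.apply, AddSubmonoidClass.coe_finsetSum, ContinuousMap.sum_apply]
  simp only [sum_entry, CStarMatrix.smul_apply, tensor_apply, frame_pair_apply]
  refine Finset.sum_congr rfl fun k _ => ?_
  simp only [mul_smul, ← Finset.smul_sum, frame_reproduce k (shapeAt_z f k)]
  exact (RCLike.real_smul_eq_coe_smul (K := ℂ) _ _)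

end Frame

end Vale.Agent.P101.Drop
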