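import Vale.Agent.P101.Drop.Lift

/-!
Uniqueness of the norm on tensor products with dimension drop algebras: if commuting copies of the
coefficients and of the scalar algebra induce an injective map on elementary tensors, their
extension to the algebra with coefficients is isometric.
-/

open Filter Topology
open scoped unitInterval ComplexOrder

namespace Vale.Agent.P101.Drop

variable {P Q : ℕ} [NeZero P] [NeZero Q]
  {A : Type*} [CStarAlgebra A] [PartialOrder A] [StarOrderedRing A]
  {B : Type*} [CStarAlgebra B]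

/-- A matrix with one entry, as a homomorphism. -/
private noncomputable def corner : A →⋆ₙₐ[ℂ] Mat P Q A where
  toFun x := CStarMatrix.ofMatrix fun p q => if p = 0 ∧ q = 0 then x else 0
  map_smul' c x := by
    ext p q
    change (if p = 0 ∧ q = 0 then c • x else 0) = c • (if p = 0 ∧ q = 0 then x else 0)
    split <;> simp
  map_zero' := by
    ext p q
    change (if p = 0 ∧ q = 0 then (0 : A) else 0) = 0
    split <;> simp
  map_add' x y := by
    ext p q
    change (if p = 0 ∧ q = 0 then x + y else 0) =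
      (if p = 0 ∧ q = 0 then x else 0) + (if p = 0 ∧ q = 0 then y else 0)
    split <;> simp
  map_mul' x y := by
    ext p q
    simp only [CStarMatrix.mul_apply]
    change (if p = 0 ∧ q = 0 then x * y else 0) =
      ∑ r, (if p = 0 ∧ r = 0 then x else 0) * (if r = 0 ∧ q = 0 then y else 0)
    by_cases h1 : p = 0 <;> by_cases h2 : q = 0 <;> simp [h1, h2]
  map_star' x := by
    ext p q
    simp only [CStarMatrix.star_apply]
    change (if p = 0 ∧ q = 0 then star x else 0) = star (if q = 0 ∧ p = 0 then x else 0)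
    by_cases h1 : p = 0 <;> by_cases h2 : q = 0 <;> simp [h1, h2]

/-- A weighted matrix unit supported inside the interval. -/
private noncomputable def elem (η : C(I, ℝ)) (h0 : η 0 = 0) (h1 : η 1 = 0) (μ ν : Idx P Q) :
    dropAlg P Q ℂ :=
  ⟨⟨fun t => CStarMatrix.ofMatrix fun p q => if p = μ ∧ q = ν then (η t : ℂ) else 0,
      continuous_pi fun p => continuous_pi fun q => show Continuous fun t =>
        if p = μ ∧ q = ν then (η t : ℂ) else 0 by
          split_ifs
          exacts [Complex.continuous_ofReal.comp η.continuous, continuous_const]⟩,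
    ⟨fun _ _ => 0, fun p q => by
      change (if p = μ ∧ q = ν then (η 0 : ℂ) else 0) = _
      simp [h0]⟩, fun _ _ => 0, fun p q => by
      change (if p = μ ∧ q = ν then (η 1 : ℂ) else 0) = _
      simp [h1]⟩

omit [NeZero P] [NeZero Q] in
private theorem elem_apply (η : C(I, ℝ)) (h0 : η 0 = 0) (h1 : η 1 = 0) (μ ν : Idx P Q) (t : I)
    (p q : Idx P Q) :
    (elem η h0 h1 μ ν : C(I, Mat P Q ℂ)) t p q = if p = μ ∧ q = ν then (η t : ℂ) else 0 := rfl

variable (ι : A →⋆ₐ[ℂ] B) (ψ : dropAlg P Q ℂ →⋆ₐ[ℂ] B) (hc : ∀ a z, Commute (ι a) (ψ z))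

include hc in
/-- The extension of commuting copies that are injective on elementary tensors is injective. -/
theorem lift_injective (hinj : ∀ a z, ι a * ψ z = 0 → a = 0 ∨ z = 0) :
    Function.Injective (lift ι ψ hc) := by
  rw [injective_iff_map_eq_zero]
  intro f hf
  by_contra hf0
  -- a nonzero entry at an interior point
  obtain ⟨t₀, μ, ν, ht, hne⟩ : ∃ (t₀ : I) (μ ν : Idx P Q), ((t₀ : ℝ) ∈ Set.Ioo (0 : ℝ) 1) ∧
      (f : C(I, Mat P Q A)) t₀ μ ν ≠ 0 := by
    by_contra hcon
    push Not at hcon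
    refine hf0 (Subtype.ext (ContinuousMap.ext fun t => ?_))
    ext p q
    have hS : Dense {t : I | (t : ℝ) ∈ Set.Ioo (0 : ℝ) 1} := by
      rw [Subtype.dense_iff]
      intro x hx
      change x ∈ Set.Icc (0 : ℝ) 1 at hx
      rw [← closure_Ioo zero_ne_one] at hx
      refine closure_mono (fun y hy => ?_) hx
      exact Set.mem_image_of_mem Subtype.val
        (show (⟨y, Set.Ioo_subset_Icc_self hy⟩ : I) ∈ {t : I | (t : ℝ) ∈ Set.Ioo (0 : ℝ) 1} from hy)
    have hcont : Continuous fun t : I => (f : C(I, Mat P Q A)) t p q :=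
      (continuous_apply q).comp ((continuous_apply p).comp (f : C(I, Mat P Q A)).continuous)
    have := Continuous.ext_on hS hcont (continuous_const (y := (0 : A))) fun t ht => hcon t p q ht
    exact congrFun this t
  have hcontc : Continuous fun t : I => (f : C(I, Mat P Q A)) t μ ν :=
    (continuous_apply ν).comp ((continuous_apply μ).comp (f : C(I, Mat P Q A)).continuous)
  set c₀ := (f : C(I, Mat P Q A)) t₀ μ ν with hc₀
  set δ := ‖c₀‖ / 8 with hδdef
  have hδ : 0 < δ := by positivity
  obtain ⟨r₀, hr₀, hball⟩ := Metric.continuousAt_iff.1 (hcontc.continuousAt (x := t₀)) δ hδ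
  set r := min r₀ (min (t₀ : ℝ) (1 - t₀))
  have hr : 0 < r := lt_min hr₀ (lt_min ht.1 (by linarith [ht.2]))
  set η : C(I, ℝ) := ⟨fun t => max 0 (min 1 (2 - 2 * dist t t₀ / r)), by fun_prop⟩
  set η₃ : C(I, ℝ) := ⟨fun t => max 0 (1 - 2 * dist t t₀ / r), by fun_prop⟩
  have hout : ∀ t, r ≤ dist t t₀ → η t = 0 ∧ η₃ t = 0 := fun t h => by
    have : 2 ≤ 2 * dist t t₀ / r := by rw [le_div_iff₀ hr]; linarith
    constructor
    · exact max_eq_left (le_trans (min_le_right _ _) (by linarith))
    · exact max_eq_left (by linarith)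
  have hd0 : r ≤ dist (0 : I) t₀ := by
    rw [Subtype.dist_eq, Real.dist_eq, Set.Icc.coe_zero, zero_sub, abs_neg, abs_of_pos ht.1]
    exact (min_le_right _ _).trans (min_le_left _ _)
  have hd1 : r ≤ dist (1 : I) t₀ := by
    rw [Subtype.dist_eq, Real.dist_eq, Set.Icc.coe_one, abs_of_pos (by linarith [ht.2])]
    exact (min_le_right _ _).trans (min_le_right _ _)
  set sq : C(I, ℝ) := η * η
  have hη1 : ∀ t, η₃ t = sq t * η₃ t := fun t => by
    by_cases h : η₃ t = 0
    · simp [h]
    · have h1 : 0 < 1 - 2 * dist t t₀ / r := by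
        by_contra h'
        exact h (max_eq_left (not_lt.1 h'))
      have h2 : η t = 1 := by
        change max 0 (min 1 (2 - 2 * dist t t₀ / r)) = 1
        rw [min_eq_left (by linarith)]
        norm_num
      simp [sq, h2]
  have hη01 : ∀ t, 0 ≤ η t ∧ η t ≤ 1 := fun t =>
    ⟨le_max_left _ _, max_le zero_le_one (min_le_left _ _)⟩
  have hs0 : sq 0 = 0 := by simp [sq, (hout 0 hd0).1]
  have hs1 : sq 1 = 0 := by simp [sq, (hout 1 hd1).1]
  set w : dropAlg P Q ℂ := elem sq hs0 hs1 0 0
  set w₃ : dropAlg P Q ℂ := elem η₃ (hout 0 hd0).2 (hout 1 hd1).2 0 0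
  set L := tensor (1 : A) (elem η (hout 0 hd0).1 (hout 1 hd1).1 0 μ : dropAlg P Q ℂ)
  set R := tensor (1 : A) (elem η (hout 0 hd0).1 (hout 1 hd1).1 ν 0 : dropAlg P Q ℂ)
  -- the coefficient at `t₀` is small in the image
  have hsmall : ‖ι c₀ * ψ w‖ ≤ δ := by
    have hker : lift ι ψ hc (L * f * R) = 0 := by rw [map_mul, map_mul, hf, mul_zero, zero_mul]
    have heq : ι c₀ * ψ w = lift ι ψ hc (tensor c₀ w - L * f * R) := by
      rw [map_sub, hker, sub_zero, lift_tensor]
    rw [heq]
    refine (norm_lift_le ι ψ hc _).trans ?_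
    change ‖((tensor c₀ w - L * f * R : dropAlg P Q A) : C(I, Mat P Q A))‖ ≤ δ
    refine (ContinuousMap.norm_le _ hδ.le).2 fun t => ?_
    have hval : ((tensor c₀ w - L * f * R : dropAlg P Q A) : C(I, Mat P Q A)) t =
        corner ((sq t : ℂ) • (c₀ - (f : C(I, Mat P Q A)) t μ ν)) := by
      ext p q
      change (w : C(I, Mat P Q ℂ)) t p q • c₀ -
        ((L : C(I, Mat P Q A)) t * (f : C(I, Mat P Q A)) t * (R : C(I, Mat P Q A)) t) p q =
        if p = 0 ∧ q = 0 then ((sq t : ℂ) • (c₀ - (f : C(I, Mat P Q A)) t μ ν)) else 0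
      simp only [CStarMatrix.mul_apply, L, R, w, tensor_apply, elem_apply, ite_smul, zero_smul,
        smul_mul_assoc, mul_smul_comm, one_mul, mul_one, ite_mul, zero_mul,
        mul_ite, mul_zero]
      by_cases h1 : p = 0 <;> by_cases h2 : q = 0 <;>
        simp [h1, h2, smul_sub, smul_smul, sq, ← Complex.ofReal_mul, Complex.coe_smul]
    rw [hval]
    refine (NonUnitalStarAlgHom.norm_apply_le _ _).trans ?_
    rw [norm_smul, Complex.norm_real, Real.norm_eq_abs, norm_sub_rev]
    by_cases hd : r ≤ dist t t₀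
    · simp [sq, (hout t hd).1, hδ.le]
    · have hclose := hball ((not_le.1 hd).trans_le (min_le_left _ _))
      rw [dist_eq_norm] at hclose
      calc |sq t| * ‖(f : C(I, Mat P Q A)) t μ ν - c₀‖ ≤ 1 * δ := by
            refine mul_le_mul ?_ hclose.le (norm_nonneg _) zero_le_one
            have := hη01 t
            rw [abs_le]
            change -1 ≤ η t * η t ∧ η t * η t ≤ 1
            constructor <;> nlinarith
        _ = δ := one_mul δ
  -- plateau functions of `y₀ = c₀* c₀`
  set y₀ := star c₀ * c₀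
  have hy₀ : ‖y₀‖ = ‖c₀‖ * ‖c₀‖ := CStarRing.norm_star_mul_self
  have hy₀pos : 0 < ‖y₀‖ := by rw [hy₀]; positivity
  set N := ‖y₀‖
  let F₁ : ℝ → ℝ := fun s => max 0 (min 1 (4 * s / N - 2))
  let F₂ : ℝ → ℝ := fun s => max 0 (s - 3 * N / 4)
  let G : ℝ → ℝ := fun s => F₁ s / max s (N / 2)
  have hF₁ : Continuous F₁ := by fun_prop
  have hF₂ : Continuous F₂ := by fun_prop
  have hG : Continuous G := hF₁.div (by fun_prop) fun s => (lt_max_of_lt_right (by positivity)).ne'
  have hGs : (fun s => G s * s) = F₁ := funext fun s => by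
    rcases le_total s (N / 2) with h | h
    · have h0 : F₁ s = 0 := max_eq_left (le_trans (min_le_right _ _) (by
        rw [sub_nonpos, div_le_iff₀ hy₀pos]; linarith))
      simp [G, h0]
    · simp only [G, max_eq_left h]
      exact div_mul_cancel₀ _ (by linarith : (0 : ℝ) < s).ne'
  have hF12 : ∀ s, F₁ s * F₂ s = F₂ s := fun s => by
    rcases le_total s (3 * N / 4) with h | h
    · simp [F₂, h]
    · have h1 : 1 ≤ 4 * s / N - 2 := by
        rw [le_sub_iff_add_le, le_div_iff₀ hy₀pos]; linarith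
      simp [F₁, min_eq_left h1]
  set X₁ := ι (cfc F₁ y₀) * ψ w
  set X₂ := ι (cfc F₂ y₀) * ψ w₃
  have hw : w * w₃ = w₃ := by
    ext t p q
    change ∑ s, (w : C(I, Mat P Q ℂ)) t p s * (w₃ : C(I, Mat P Q ℂ)) t s q = _
    simp only [w, w₃, elem_apply]
    by_cases h1 : p = 0 <;> by_cases h2 : q = 0 <;> simp [h1, h2]
    exact_mod_cast (hη1 t).symm
  have hX : X₁ * X₂ = X₂ := by
    simp only [X₁, X₂]
    rw [Commute.mul_mul_mul_comm (hc _ _).symm, ← map_mul, ← map_mul, hw,
      ← cfc_mul F₁ F₂ y₀ hF₁.continuousOn hF₂.continuousOn]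
    simp only [hF12]
  have hX₂ : X₂ ≠ 0 := by
    intro h0
    rcases hinj _ _ h0 with h | h
    · have hmem : N ∈ spectrum ℝ y₀ := by
        have : Nontrivial A := ⟨⟨c₀, 0, hne⟩⟩
        exact CStarAlgebra.norm_mem_spectrum_of_nonneg (star_mul_self_nonneg c₀)
      have h' := norm_apply_le_norm_cfc F₂ y₀ hmem hF₂.continuousOn (IsSelfAdjoint.star_mul_self c₀)
      rw [h, norm_zero, Real.norm_eq_abs, show F₂ N = N / 4 by
        simp only [F₂]; rw [max_eq_right (by linarith)]; ring, abs_of_pos (by positivity)] at h'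
      linarith
    · have h' : ((w₃ : C(I, Mat P Q ℂ)) t₀) 0 0 = 0 := by rw [h]; rfl
      simp only [w₃, elem_apply, and_self, if_true, Complex.ofReal_eq_zero] at h'
      change max 0 (1 - 2 * dist t₀ t₀ / r) = 0 at h'
      simp at h'
  have hX₁ : ‖X₁‖ ≤ 1 / 4 := by
    have e : X₁ = ι (cfc G y₀ * star c₀) * (ι c₀ * ψ w) := by
      simp only [X₁]
      rw [← mul_assoc, ← map_mul, mul_assoc, show star c₀ * c₀ = y₀ from rfl]
      congr 2
      conv_rhs => arg 2; rw [← cfc_id' ℝ y₀ (IsSelfAdjoint.star_mul_self c₀)]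
      rw [← cfc_mul G (fun s => s) y₀ hG.continuousOn continuousOn_id, hGs]
    rw [e]
    refine (norm_mul_le _ _).trans ?_
    have hGn : ‖cfc G y₀‖ ≤ 2 / N := norm_cfc_le (by positivity) fun s _ => by
      rw [Real.norm_eq_abs, abs_div, abs_of_nonneg (le_max_left _ _ : 0 ≤ F₁ s),
        abs_of_pos (lt_max_of_lt_right (by positivity) : 0 < max s (N / 2)),
        div_le_div_iff₀ (lt_max_of_lt_right (by positivity)) hy₀pos]
      have hF1 : F₁ s ≤ 1 := max_le zero_le_one (min_le_left _ _)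
      nlinarith [le_max_right s (N / 2), mul_le_mul_of_nonneg_right hF1 hy₀pos.le]
    have h1 : ‖ι (cfc G y₀ * star c₀)‖ ≤ 2 / N * ‖c₀‖ := by
      refine (NonUnitalStarAlgHom.norm_apply_le ι _).trans ((norm_mul_le _ _).trans ?_)
      rw [norm_star]
      exact mul_le_mul_of_nonneg_right hGn (norm_nonneg _)
    refine (mul_le_mul h1 hsmall (norm_nonneg _) (by positivity)).trans (le_of_eq ?_)
    rw [hδdef, hy₀]
    field_simp
    ring
  have hle := norm_mul_le X₁ X₂
  rw [hX] at hle
  nlinarith [norm_pos_iff.2 hX₂]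

include hc in
/-- Commuting copies that are injective on elementary tensors determine the norm. -/
theorem norm_lift (hinj : ∀ a z, ι a * ψ z = 0 → a = 0 ∨ z = 0) (f : dropAlg P Q A) :
    ‖lift ι ψ hc f‖ = ‖f‖ :=
  NonUnitalStarAlgHom.norm_map (lift ι ψ hc) (lift_injective ι ψ hc hinj) f

end Vale.Agent.P101.Drop
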