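import Vale.Agent.P101.Drop.Lift

/-!
The two legs of a dimension drop algebra with coefficients, and the extension of a homomorphism
between scalar dimension drop algebras to the ones with coefficients.
-/

set_option maxSynthPendingDepth 3

open Filter Topology
open scoped unitInterval ComplexOrder

namespace Vale.Agent.P101.Drop

variable {P Q P' Q' : ℕ} [NeZero P] [NeZero Q] [NeZero P'] [NeZero Q']
  {A : Type*} [CStarAlgebra A] [PartialOrder A] [StarOrderedRing A]

variable (P Q) in
/-- The leg of the coefficients. -/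
noncomputable def tensorL : A →⋆ₐ[ℂ] dropAlg P Q A where
  toFun a := tensor a 1
  map_one' := tensor_one
  map_mul' a b := by rw [tensor_mul, mul_one]
  map_zero' := by ext t p q; simp [tensor_apply]
  map_add' a b := by ext t p q; simp [tensor_apply]
  commutes' c := by
    rw [Algebra.algebraMap_eq_smul_one, tensor_smul, tensor_one, Algebra.algebraMap_eq_smul_one]
  map_star' a := by rw [tensor_star, star_one]

variable (A) in
/-- The scalar leg. -/
noncomputable def tensorR : dropAlg P Q ℂ →⋆ₐ[ℂ] dropAlg P Q A where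
  toFun z := tensor 1 z
  map_one' := tensor_one
  map_mul' z w := by rw [tensor_mul, mul_one]
  map_zero' := by ext t p q; simp [tensor_apply]
  map_add' z w := by ext t p q; simp [tensor_apply, add_smul]
  commutes' c := by ext t p q; simp [tensor_apply, Algebra.algebraMap_eq_smul_one,
    CStarMatrix.one_apply, apply_ite (fun x : ℂ => x • (1 : A))]
  map_star' z := by rw [tensor_star, star_one]

omit [NeZero P] [NeZero Q] in
theorem tensorL_apply (a : A) : tensorL P Q a = tensor a 1 := rfl

omit [NeZero P] [NeZero Q] in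
theorem tensorR_apply (z : dropAlg P Q ℂ) : tensorR A z = tensor 1 z := rfl

omit [NeZero P] [NeZero Q] in
theorem tensorL_mul_tensorR (a : A) (z : dropAlg P Q ℂ) :
    tensorL P Q a * tensorR A z = tensor a z := by
  rw [tensorL_apply, tensorR_apply, tensor_mul, mul_one, one_mul]

omit [NeZero P] [NeZero Q] in
theorem commute_tensorL_tensorR (a : A) (z : dropAlg P Q ℂ) :
    Commute (tensorL P Q a) (tensorR A z) := by
  rw [Commute, SemiconjBy, tensorL_apply, tensorR_apply, tensor_mul, tensor_mul]
  simp

theorem tensorL_injective : Function.Injective (tensorL P Q : A → dropAlg P Q A) := by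
  intro a b h
  have := congrArg (fun f : dropAlg P Q A => (f : C(I, Mat P Q A)) 0 (0, 0) (0, 0)) h
  simpa [tensorL_apply, tensor_apply, CStarMatrix.one_apply] using this

/-- The scalar function seen by a functional on the coefficients. -/
noncomputable def slice (ω : A →L[ℂ] ℂ) (f : dropAlg P Q A) : dropAlg P Q ℂ :=
  ⟨(⟨fun y => y.map ω, continuous_pi fun p => continuous_pi fun q => ω.continuous.comp
      ((continuous_apply q).comp (continuous_apply p))⟩ : C(Mat P Q A, Mat P Q ℂ)).comp
        (f : C(I, Mat P Q A)), by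
    obtain ⟨⟨x, hx⟩, y, hy⟩ := f.2
    refine ⟨⟨fun i j => ω (x i j), fun p q => ?_⟩, fun i j => ω (y i j), fun p q => ?_⟩
    · change ω ((f : C(I, Mat P Q A)) 0 p q) = _
      rw [hx]; split <;> simp
    · change ω ((f : C(I, Mat P Q A)) 1 p q) = _
      rw [hy]; split <;> simp⟩

omit [NeZero P] [NeZero Q] in
theorem slice_apply (ω : A →L[ℂ] ℂ) (f : dropAlg P Q A) (t : I) (p q : Idx P Q) :
    (slice ω f : C(I, Mat P Q ℂ)) t p q = ω ((f : C(I, Mat P Q A)) t p q) := rfl

omit [NeZero P] [NeZero Q] in
theorem continuous_slice (ω : A →L[ℂ] ℂ) :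
    Continuous (slice ω : dropAlg P Q A → dropAlg P Q ℂ) :=
  Continuous.subtype_mk ((ContinuousMap.continuous_postcomp _).comp continuous_subtype_val) _

omit [NeZero P] [NeZero Q] in
theorem slice_tensor (ω : A →L[ℂ] ℂ) (a : A) (z : dropAlg P Q ℂ) :
    slice ω (tensor a z) = ω a • z := by
  ext t p q
  simp [slice_apply, tensor_apply, mul_comm]

omit [NeZero P] [NeZero Q] in
theorem slice_sum (ω : A →L[ℂ] ℂ) {ι : Type*} (s : Finset ι) (f : ι → dropAlg P Q A) :
    slice ω (∑ i ∈ s, f i) = ∑ i ∈ s, slice ω (f i) := by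
  ext t p q
  simp [slice_apply, AddSubmonoidClass.coe_finsetSum, sum_entry, map_sum]

variable (A) in
/-- The extension to coefficients. -/
noncomputable def extend (ψ : dropAlg P Q ℂ →⋆ₐ[ℂ] dropAlg P' Q' ℂ) :
    dropAlg P Q A →⋆ₐ[ℂ] dropAlg P' Q' A :=
  lift (tensorL P' Q') ((tensorR A).comp ψ) fun a z => by rw [StarAlgHom.comp_apply]; exact commute_tensorL_tensorR a (ψ z)

theorem extend_tensor (ψ : dropAlg P Q ℂ →⋆ₐ[ℂ] dropAlg P' Q' ℂ) (a : A) (z : dropAlg P Q ℂ) :
    extend A ψ (tensor a z) = tensor a (ψ z) := by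
  rw [extend, lift_tensor, StarAlgHom.comp_apply, tensorL_mul_tensorR]

theorem slice_extend (ψ : dropAlg P Q ℂ →⋆ₐ[ℂ] dropAlg P' Q' ℂ) (ω : A →L[ℂ] ℂ)
    (f : dropAlg P Q A) : slice ω (extend A ψ f) = ψ (slice ω f) := by
  refine tendsto_nhds_unique
    (((continuous_slice ω).comp (continuous_hom (extend A ψ))).tendsto f |>.comp (tendsto_bern f))
    ((((continuous_hom ψ).comp (continuous_slice ω)).tendsto f |>.comp (tendsto_bern f)).congr
      fun n => ?_)
  simp [bern, map_sum, slice_sum, extend_tensor, slice_tensor]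

theorem extend_injective {ψ : dropAlg P Q ℂ →⋆ₐ[ℂ] dropAlg P' Q' ℂ}
    (hψ : Function.Injective ψ) : Function.Injective (extend A ψ) := by
  intro f g h
  ext t p q
  refine (SeparatingDual.eq_iff_forall_dual_eq (R := ℂ)).2 fun ω => ?_
  have := congrArg (fun e : dropAlg P Q ℂ => (e : C(I, Mat P Q ℂ)) t p q)
    (hψ (by rw [← slice_extend, ← slice_extend, h] : ψ (slice ω f) = ψ (slice ω g)))
  exact this

omit [NeZero P] [NeZero Q] in
theorem separableSpace_dropAlg [TopologicalSpace.SeparableSpace A] :
    TopologicalSpace.SeparableSpace (dropAlg P Q A) := by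
  have : SecondCountableTopology A := UniformSpace.secondCountable_of_separable A
  have : SecondCountableTopology (Mat P Q A) :=
    inferInstanceAs (SecondCountableTopology (Idx P Q → Idx P Q → A))
  infer_instance

end Vale.Agent.P101.Drop
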